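import Vale.Agent.P354XB.Defs
import Vale.Agent.P354YJ.Defs

/-!
TOPK: a universal profile for which the wave which arrives on the slice tau = T is a kick.
-/

open scoped ContDiff
open Set

noncomputable section

namespace Vale.Agent.P354YX

open Vale.Agent.P354n (R4)
open Vale.Agent.P354H (X3)
open Vale.Agent.P354C Vale.Agent.P354C.Ix
open Vale.Agent.P354A (cmp)
open Vale.Agent.P354XB (Pa wv amp Prf Kick top)
open Vale.Agent.P354YJ (RT Ab)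

/-- The window on the slice tau = T, in the variables (v, y). -/
def Tw (R w : ℝ) : Set X3 := {z | z.1 ∈ Ioo (R - 2 * w) (R + 5 / 2 * w) ∧ ‖z.2‖ < 9 / 2}

/-- The point of the slice tau = T with the coordinates (v, y). -/
def pT (T : ℝ) (z : X3) : R4 := (T, z.1 - T, z.2)

/-- TOPK. -/
def TOPK : Prop :=
  ∃ Λ : ℝ, ∀ w > 0, ∀ (B c0 : ℝ), 0 < c0 → ∀ n : ℕ, ∃ C ≥ 1, ∀ R : ℝ, ∃ α : X3 → Ix → ℝ,
    Prf n R w C α ∧
    (∀ z : X3, z.1 ≤ R - w / 4 ∨ R + 5 / 4 * w ≤ z.1 ∨ 3 / 2 ≤ ‖z.2‖ → α z = 0) ∧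
    ∀ (T A l E : ℝ) (U U' : R4 → Ix → ℝ), C ≤ l → 0 < A → A ≤ 1 → C * E ≤ A →
      (∀ z ∈ Tw R w, 0 < U (pT T z) O ∧ c0 ≤ detP (U (pT T z)) ∧ RT (top U T) z = top U T z ∧
        ∀ i, ContDiffAt ℝ ∞ (cmp U i) (pT T z) ∧ ContDiffAt ℝ ∞ (cmp U' i) (pT T z) ∧
          Ab 5 (cmp (top U T) i) z B ∧
          Pa l 5 (cmp (U' - U - wv A l (amp U T α)) i) (pT T z) E) →
      Kick Λ R w A (top U T) (RT (top U' T))

end Vale.Agent.P354YX
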