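import Vale.Agent.P354YX.Defs
import Vale.Agent.P354YJ.Rl
import Vale.Agent.P354EN.Cal
import Vale.Agent.P354KK.Loc

/-!
The proof of TOPK.
-/

open scoped ContDiff
open MeasureTheory Set Filter Topology

noncomputable section

namespace Vale.Agent.P354YX

open Vale.Agent.P354n (R4)
open Vale.Agent.P354H (X3 pd pdl e)
open Vale.Agent.P354C Vale.Agent.P354C.Ix
open Vale.Agent.P354A (cmp)
open Vale.Agent.P354K (n0)
open Vale.Agent.P354J (TT GT)
open Vale.Agent.P354XB (Pa Sa wv amp Prf Kick top mu)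
open Vale.Agent.P354YJ (RT Rt rot cs sn da d0 e2 e3 al be nn rotl at_pd sm_Rt RT_ev nn_pos')
open Vale.Agent.P354EN (B dv dw v4 B_zero B_succ B_of_zero B_Pa B_Sa good_bd)

/-! ### Angular words -/

/-- The angular directions. -/
def ea (j : Fin 3) : X3 := if j = 0 then 0 else e j

variable {n : ℕ} {f : X3 → ℝ} {z : X3} {c l T : ℝ}

lemma dv_ea {j : Fin 3} (hj : j ≠ 0) (f : X3 → ℝ) : dv (ea j) f = pd j f := by
  funext z
  simp only [dv, ea, if_neg hj, pd]

lemma dw_ea {α : List (Fin 3)} (h : (0 : Fin 3) ∉ α) (f : X3 → ℝ) : dw ea α f = pdl α f := by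
  induction α generalizing f with
  | nil => rfl
  | cons j α ih =>
    rw [dw, dv_ea fun k => h (by simp [k]), ih fun k => h (List.mem_cons_of_mem _ k)]
    rfl

lemma B_ab (h : B ea 1 n f z c) : P354YJ.Ab n f z c := fun α h1 h2 => by
  simpa only [dw_ea h2, one_pow, mul_one] using h.2 α h1

lemma ab_B (hf : ContDiffAt ℝ ∞ f z) (h : P354YJ.Ab n f z c) : B ea 1 n f z c := by
  induction n generalizing f with
  | zero => exact B_zero hf (h [] le_rfl List.not_mem_nil)
  | succ n ih =>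
    have h0 := h [] (Nat.zero_le _) List.not_mem_nil
    refine B_succ hf h0 fun j => ?_
    rw [one_pow, mul_one]
    by_cases hj : j = 0
    · refine B_of_zero zero_le_one ((abs_nonneg _).trans h0) (Eventually.of_forall fun q => ?_)
      simp [dv, ea, hj]
    · rw [dv_ea hj]
      exact ih (at_pd hf j) fun α h1 h2 => h (j :: α) (by simpa using h1)
        fun k => (List.mem_cons.1 k).elim (Ne.symm hj) h2

lemma pT_sm (T : ℝ) : ContDiff ℝ ∞ (pT T) := by
  unfold pT
  fun_prop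

lemma slice {g : R4 → ℝ} (hg : ContDiffAt ℝ ∞ g (pT T z)) (h : Pa l n g (pT T z) c) :
    B ea 1 n (fun y => g (pT T y)) z c := by
  have e1 : ∀ y : X3, ContinuousLinearMap.inr ℝ ℝ X3 y + (T, -T, 0) = pT T y := fun y => by
    obtain ⟨a, b⟩ := y
    simp [pT, sub_eq_add_neg]
  have k := P354EN.B.aff (v := e) (u := v4) (p := z) (ContinuousLinearMap.inr ℝ ℝ X3) (T, -T, 0)
    (fun j => rfl) (B_Pa.2 ⟨e1 z ▸ hg, e1 z ▸ h⟩)
  simp only [e1] at k
  refine ab_B k.1 fun α h1 h2 => ?_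
  have := (B_Sa.1 k).2 α h1
  rwa [show n0 α = 0 from List.count_eq_zero.2 h2, pow_zero, mul_one] at this

lemma B_fst {F : ℝ → ℝ} (hF : ContDiff ℝ ∞ F) (h : |F z.1| ≤ c) :
    B ea 1 n (fun y => F y.1) z c := by
  have k : B (fun _ : Fin 3 => (0 : ℝ)) 1 n F (ContinuousLinearMap.fst ℝ ℝ (ℝ × ℝ) z + 0) c := by
    have h' : |F (ContinuousLinearMap.fst ℝ ℝ (ℝ × ℝ) z + 0)| ≤ c := by simpa using h
    cases n with
    | zero => exact B_zero hF.contDiffAt h'
    | succ n =>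
      exact B_succ hF.contDiffAt h' fun j => B_of_zero zero_le_one
        (by simpa using (abs_nonneg _).trans h) (Eventually.of_forall fun q => by simp [dv])
  simpa using P354EN.B.aff (v := ea) _ 0 (fun j => by fin_cases j <;> simp [ea, e]) k

lemma B_snd {v : Fin 3 → X3} {g : ℝ × ℝ → ℝ} (h : ∀ p, B (fun j => (v j).2) 1 n g p c) :
    B v 1 n (fun y => g y.2) z c := by
  simpa using P354EN.B.aff (v := v) (p := z) (ContinuousLinearMap.snd ℝ ℝ (ℝ × ℝ)) 0
    (fun j => rfl) (h _)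

lemma bump {E : Type} [NormedAddCommGroup E] [NormedSpace ℝ E] [FiniteDimensional ℝ E] (x : E)
    {r s : ℝ} (hr : 0 < r) (hs : r < s) : ∃ χ : E → ℝ, ContDiff ℝ ∞ χ ∧ HasCompactSupport χ ∧
      (∀ y, |χ y| ≤ 1) ∧ (∀ y, ‖y - x‖ ≤ r → χ y = 1) ∧ ∀ y, s ≤ ‖y - x‖ → χ y = 0 := by
  let b : ContDiffBump x := ⟨r, s, hr, hs⟩
  refine ⟨b, b.contDiff, b.hasCompactSupport, fun y => ?_, fun y h => ?_, fun y h => ?_⟩
  · rw [abs_of_nonneg b.nonneg]
    exact b.le_one
  · exact b.one_of_mem_closedBall (by simpa [dist_eq_norm] using h)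
  · exact b.zero_of_le_dist (by simpa [dist_eq_norm] using h)

lemma sin_w {w : ℝ} (hw : 0 < w) (hl : 5 ≤ l * w) (R : ℝ) :
    ENNReal.ofReal (w / 3) ≤ volume {x ∈ Ioo R (R + w) | 1 / 4 ≤ |Real.sin (l * x)|} := by
  have k := P354KK.sin_big hl (w⁻¹ * R) 0
  have e1 : {x ∈ Ioo R (R + w) | 1 / 4 ≤ |Real.sin (l * x)|} = (w⁻¹ * ·) ⁻¹'
      {s ∈ Ioo (w⁻¹ * R) (w⁻¹ * R + 1) | 1 / 4 ≤ |Real.sin (l * w * (s - 0))|} := by
    ext x
    have e2 : l * w * (w⁻¹ * x - 0) = l * x := by field_simp; ring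
    have e3 : w⁻¹ * R + 1 = w⁻¹ * (R + w) := by field_simp
    simp only [mem_ofPred_eq, mem_preimage, mem_Ioo, e2, e3,
      mul_lt_mul_iff_right₀ (inv_pos.2 hw)]
  rw [e1, Real.volume_preimage_mul_left (inv_ne_zero hw.ne'), inv_inv, abs_of_pos hw,
    ENNReal.ofReal_div_of_pos (by norm_num), div_eq_mul_one_div]
  exact mul_le_mul_right (by simpa using k) _

/-! ### The symmetric frame does not see the wave -/

lemma rot_one (g : Fin 3 → ℝ) (U V : Ix → ℝ) (i : Ix) :
    rot 1 0 g V i = V i + (rot 1 0 g U i - U i) := by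
  cases i <;> simp only [rot] <;> ring

lemma Rt_add {U V D1 D2 D1' D2' : Ix → ℝ} (hV : ∀ i, i ≠ a1 → V i = U i)
    (h1 : ∀ i, i ≠ a1 → D1' i = D1 i) (h2 : ∀ i, i ≠ a1 → D2' i = D2 i) (h : Rt U D1 D2 = U)
    (hd : detP U ≠ 0) : Rt V D1' D2' = V := by
  have k1 : cs U * U P11 + sn U * U P21 = U P11 := congrFun h P11
  have k2 : cs U * U P12 + sn U * U P22 = U P12 := congrFun h P12
  have c1 : cs U = 1 := by
    refine sub_eq_zero.1 ((mul_eq_zero.1 (?_ : (cs U - 1) * detP U = 0)).resolve_right hd)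
    unfold detP
    linear_combination U P22 * k1 - U P21 * k2
  have s0 : sn U = 0 := by
    refine (mul_eq_zero.1 (?_ : sn U * detP U = 0)).resolve_right hd
    unfold detP
    linear_combination U P11 * k2 - U P12 * k1
  have g : Gam V = Gam U := by
    funext i
    simp [Gam, hV]
  have t : TT V = TT U := by
    funext s t m
    simp only [TT, GT, g]
  have ec : cs V = cs U := by simp [cs, al, be, nn, hV]
  have es : sn V = sn U := by simp [sn, al, be, nn, hV]
  have f0 : da V (d0 V D1' D2') = da U (d0 U D1 D2) := by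
    simp [da, d0, al, be, nn, e2, e3, t, hV, h1, h2]
  have f1 : da V (e2 V D1' D2') = da U (e2 U D1 D2) := by
    simp [da, al, be, nn, e2, hV, h1, h2]
  have f2 : da V (e3 V D1' D2') = da U (e3 U D1 D2) := by
    simp [da, al, be, nn, e3, hV, h1, h2]
  funext i
  have k := congrFun h i
  rw [Rt, c1, s0] at k
  rw [Rt, ec, es, f0, f1, f2, c1, s0, rot_one _ U, k, sub_self, add_zero]

lemma RT_sm {u : X3 → Ix → ℝ} (h : ∀ i, ContDiffAt ℝ ∞ (fun y => u y i) z) (hd : 0 < detP (u z))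
    (i : Ix) : ContDiffAt ℝ ∞ (fun y => RT u y i) z :=
  have s := contDiffAt_pi.2 h
  contDiffAt_pi.1 ((sm_Rt s (nn_pos' hd) (at_pd s 1) (at_pd s 2)).congr_of_eventuallyEq (RT_ev s)) i

lemma mu_pos {U : Ix → ℝ} (h0 : 0 < U O) (hd : 0 < detP U) : 0 < mu U :=
  div_pos (Real.sqrt_pos.2 hd) h0

lemma mu_sm {U : R4 → Ix → ℝ} {p : R4} (h : ∀ i, ContDiffAt ℝ ∞ (cmp U i) p) (h0 : 0 < U p O)
    (hd : 0 < detP (U p)) : ContDiffAt ℝ ∞ (fun q => mu (U q)) p :=
  ((((h P11).mul (h P22)).sub ((h P12).mul (h P21))).sqrt hd.ne').div (h O) h0.ne'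

lemma wv_sm {U : R4 → Ix → ℝ} {α : X3 → Ix → ℝ} (A : ℝ) (hα : ∀ i, ContDiff ℝ ∞ (cmp α i))
    (h : ∀ i, ContDiffAt ℝ ∞ (cmp U i) (pT T z)) (h0 : 0 < U (pT T z) O)
    (hd : 0 < detP (U (pT T z))) (i : Ix) :
    ContDiffAt ℝ ∞ (cmp (wv A l (amp U T α)) i) (pT T z) := by
  have m := mu_sm h h0 hd
  have e1 : ((T, (pT T z).1 + (pT T z).2.1 - T, (pT T z).2.2) : R4) = pT T z := by
    simp only [pT, add_sub_cancel_left]
  have s1 : ContDiff ℝ ∞ fun q : R4 => ((T, q.1 + q.2.1 - T, q.2.2) : R4) := by fun_prop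
  have s2 : ContDiff ℝ ∞ fun q : R4 => ((q.1 + q.2.1, q.2.2) : X3) := by fun_prop
  have s3 : ContDiff ℝ ∞ fun q : R4 => A * Real.sin (l * (q.1 + q.2.1)) := by fun_prop
  have m2 := ContDiffAt.comp (g := fun q => mu (U q)) (pT T z) (e1.symm ▸ m) s1.contDiffAt
  exact s3.contDiffAt.mul (((hα i).comp s2).contDiffAt.mul
    (m.div m2 (by simpa only [Function.comp, e1] using (mu_pos h0 hd).ne')))

lemma wv_pT {U : R4 → Ix → ℝ} (α : X3 → Ix → ℝ) (A : ℝ) (h0 : 0 < U (pT T z) O)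
    (hd : 0 < detP (U (pT T z))) (i : Ix) :
    wv A l (amp U T α) (pT T z) i = A * Real.sin (l * z.1) * α z i := by
  have k := div_self (mu_pos h0 hd).ne'
  simp only [wv, amp, pT, add_sub_cancel] at k ⊢
  rw [k, mul_one]

lemma Tw_open (R w : ℝ) : IsOpen (Tw R w) :=
  (isOpen_Ioo.preimage continuous_fst).inter (isOpen_lt continuous_snd.norm continuous_const)

lemma det_near {U V : Ix → ℝ} {b E : ℝ} (h : ∀ i, |U i| ≤ b) (hE : E ≤ 1)
    (k : ∀ i, i ≠ a1 → |V i - U i| ≤ E) : detP U - (4 * b + 2) * E ≤ detP V := by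
  have E0 : 0 ≤ E := (abs_nonneg _).trans (k O (by decide))
  have p : ∀ {x y a d : ℝ}, |x| ≤ a → |y| ≤ d → |x * y| ≤ a * d := fun h1 h2 => by
    rw [abs_mul]
    exact mul_le_mul h1 h2 (abs_nonneg _) ((abs_nonneg _).trans h1)
  have q1 := abs_le.1 (p (h P11) (k P22 (by decide)))
  have q2 := abs_le.1 (p (h P22) (k P11 (by decide)))
  have q3 := abs_le.1 (p (h P12) (k P21 (by decide)))
  have q4 := abs_le.1 (p (h P21) (k P12 (by decide)))
  have q5 := abs_le.1 (p ((k P11 (by decide)).trans hE) (k P22 (by decide)))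
  have q6 := abs_le.1 (p ((k P12 (by decide)).trans hE) (k P21 (by decide)))
  unfold detP
  linarith [q1.1, q2.1, q3.2, q4.2, q5.1, q6.2]

/-- **TOPK.** -/
theorem topk : TOPK := by
  obtain ⟨χ2, s2, c2, -, o2, z2⟩ := bump (0 : ℝ × ℝ) (r := 10 / 7) (s := 3 / 2) (by norm_num)
    (by norm_num)
  obtain ⟨m, hm⟩ := good_bd s2 c2 (fun j => (ea j).2) 5
  obtain ⟨L, L0, hL⟩ : ∃ L : ℝ, 0 ≤ L ∧ L = 2 ^ 5 * (8 * 2 ^ m) := ⟨_, by positivity, rfl⟩
  refine ⟨L + 1, fun w hw b c0 h0 n => ?_⟩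
  obtain ⟨χ1, s1, c1, l1, o1, z1⟩ := bump (w / 2) (r := w / 2) (s := 3 / 4 * w) (by linarith)
    (by linarith)
  obtain ⟨m1, hm1⟩ := good_bd (contDiff_const.mul s1) (c1.mul_left (f := fun _ => 8))
    (fun j => (e j).1) n
  obtain ⟨m2, hm2⟩ := good_bd s2 c2 (fun j => (e j).2) n
  obtain ⟨C', C0, hC⟩ := rotl 4 (c0 / 2) (b + L + 1) (half_pos h0)
  obtain ⟨C, C1, C2, C3, C4, C5⟩ : ∃ C : ℝ, 1 ≤ C ∧ 5 / w ≤ C ∧ 2 ^ n * (2 ^ m1 * 2 ^ m2) ≤ C ∧
      C' ≤ C ∧ (4 * b + 2) / (c0 / 2) ≤ C :=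
    ⟨max 1 (max (5 / w) (max (2 ^ n * (2 ^ m1 * 2 ^ m2)) (max C' ((4 * b + 2) / (c0 / 2))))),
      by simp, by simp, by simp, by simp, by simp⟩
  refine ⟨C, C1, fun R => ?_⟩
  obtain ⟨α, αa, αo⟩ : ∃ α : X3 → Ix → ℝ, (∀ y, α y a1 = 8 * χ1 (y.1 - R) * χ2 y.2) ∧
      ∀ y i, i ≠ a1 → α y i = 0 :=
    ⟨fun y i => if i = a1 then 8 * χ1 (y.1 - R) * χ2 y.2 else 0, fun y => if_pos rfl,
      fun y i h => if_neg h⟩
  have bd : ∀ i z, B e 1 n (cmp α i) z C := fun i z => by
    by_cases hi : i = a1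
    · have k := P354EN.B.aff (v := e) (p := z) (ContinuousLinearMap.fst ℝ ℝ (ℝ × ℝ)) (-R)
        (fun j => rfl) (hm1 _)
      refine ((k.mul zero_le_one (B_snd hm2)).mono zero_le_one le_rfl C3).congr
        (Eventually.of_forall fun y => ?_)
      simp [P354A.cmp, hi, αa, sub_eq_add_neg]
    · exact B_of_zero zero_le_one (by linarith) (Eventually.of_forall fun y => αo y i hi)
  have sm : ∀ i, ContDiff ℝ ∞ (cmp α i) := fun i => contDiff_iff_contDiffAt.2 fun z => (bd i z).1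
  have sp : ∀ z : X3, z.1 ≤ R - w / 4 ∨ R + 5 / 4 * w ≤ z.1 ∨ 3 / 2 ≤ ‖z.2‖ → α z = 0 := by
    intro z h
    funext i
    by_cases hi : i = a1
    · rw [hi, αa]
      rcases h with h | h | h
      · rw [z1 _ (le_abs.2 (Or.inr (by linarith)))]
        simp
      · rw [z1 _ (le_abs.2 (Or.inl (by linarith)))]
        simp
      · rw [z2 _ (by simpa using h)]
        simp
    · exact αo z i hi
  refine ⟨α, ⟨sm, fun p i h _ => αo p i h, fun z h => sp z (h.imp (by intro; linarith)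
    (Or.imp (by intro; linarith) (by intro; linarith))), fun i z => (B_Sa.1 (bd i z)).2⟩, sp,
    fun T A l E U U' hl hA hA1 hE H => ?_⟩
  obtain ⟨W, hW⟩ : ∃ W : X3 → Ix → ℝ, ∀ y i, W y i = A * Real.sin (l * y.1) * α y i :=
    ⟨_, fun _ _ => rfl⟩
  have W0 : ∀ y i, i ≠ a1 → W y i = 0 := fun y i h => by rw [hW, αo y i h, mul_zero]
  have hV : ∀ y i, i ≠ a1 → (top U T + W) y i = top U T y i := fun y i h => by
    simp only [Pi.add_apply, W0 y i h, add_zero]
  have fix : ∀ y ∈ Tw R w, RT (top U T + W) y = (top U T + W) y := fun y hy =>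
    Rt_add (hV y) (fun i h => by simp only [hV _ i h]) (fun i h => by simp only [hV _ i h])
      (H y hy).2.2.1 (h0.trans_le (H y hy).2.1).ne'
  have key : ∀ z ∈ Tw R w, ∀ i, B ea 1 5 (fun y => W y i) z (L * A) ∧
      B ea 1 4 (fun y => RT (top U' T) y i - top U T y i - W y i) z A := by
    intro z hz
    obtain ⟨p0, pd, -, p⟩ := H z hz
    have bu : ∀ i, B ea 1 5 (fun y => top U T y i) z b := fun i =>
      ab_B ((p i).1.comp z (pT_sm T).contDiffAt) (p i).2.2.1
    have bW : ∀ i, B ea 1 5 (fun y => W y i) z (L * A) := fun i => by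
      by_cases hi : i = a1
      · have k : B ea 1 5 (fun y => A * Real.sin (l * y.1) * (8 * χ1 (y.1 - R))) z (A * 8) := by
          refine B_fst (F := fun x => A * Real.sin (l * x) * (8 * χ1 (x - R))) (by fun_prop) ?_
          rw [abs_mul, abs_mul, abs_mul, abs_of_pos hA, abs_of_pos (by norm_num : (0 : ℝ) < 8)]
          exact mul_le_mul (mul_le_of_le_one_right hA.le (Real.abs_sin_le_one _))
            (mul_le_of_le_one_right (by norm_num) (l1 _)) (by positivity) hA.le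
        refine ((k.mul zero_le_one (B_snd hm)).mono zero_le_one le_rfl
          (le_of_eq (by rw [hL]; ring))).congr (Eventually.of_forall fun y => ?_)
        simp only [hi, hW, αa]
        ring
      · exact B_of_zero zero_le_one (by positivity) (Eventually.of_forall fun y => W0 y i hi)
    have bE : ∀ i, B ea 1 5 (fun y => top U' T y i - (top U T + W) y i) z E := fun i => by
      refine (slice (g := cmp (U' - U - wv A l (amp U T α)) i) (((p i).2.1.sub (p i).1).sub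
        (wv_sm A sm (fun i => (p i).1) p0 (h0.trans_le pd) i)) (p i).2.2.2).congr ?_
      filter_upwards [(Tw_open R w).mem_nhds hz] with y hy
      simp only [P354A.cmp, Pi.sub_apply, Pi.add_apply, hW,
        wv_pT α A (H y hy).1 (h0.trans_le (H y hy).2.1)]
      exact (sub_sub _ _ _).symm
    have E0 := (bE O).nn
    have EA : E ≤ A := (le_mul_of_one_le_left E0 C1).trans hE
    have LA : L * A ≤ L := mul_le_of_le_one_right L0 hA1
    have bV : ∀ i, B ea 1 5 (fun y => (top U T + W) y i) z (b + L) := fun i =>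
      ((bu i).add (bW i)).mono zero_le_one le_rfl (by linarith)
    have b2 : ∀ i, B ea 1 5 (fun y => top U' T y i) z (b + L + 1) := fun i =>
      (((bV i).add (bE i)).mono zero_le_one le_rfl (by linarith)).congr
        (Eventually.of_forall fun y => by simp)
    have dV : c0 / 2 ≤ detP ((top U T + W) z) := by
      have : detP ((top U T + W) z) = detP (U (pT T z)) := by
        simp only [detP, hV z P11 (by decide), hV z P12 (by decide), hV z P21 (by decide),
          hV z P22 (by decide)]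
        rfl
      linarith
    have d2 : c0 / 2 ≤ detP (top U' T z) := by
      have k := det_near (U := top U T z) (V := top U' T z) (fun i => (bu i).zero) (EA.trans hA1)
        fun i h => by simpa only [hV z i h] using (bE i).zero
      have k1 := mul_le_mul_of_nonneg_right ((div_le_iff₀ (half_pos h0)).1 C5) E0
      have k2 := mul_le_mul_of_nonneg_right (hE.trans hA1) (half_pos h0).le
      have k3 : c0 ≤ detP (top U T z) := pd
      linarith
    refine fun i => ⟨bW i, ?_⟩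
    have k := ((hC (top U T + W) (top U' T) z E (fun i => ⟨(bV i).1, (b2 i).1⟩) dV d2 fun i =>
      ⟨B_ab ((bV i).mono zero_le_one le_rfl (by linarith)), B_ab (b2 i), B_ab (bE i)⟩).1 i).2
    refine ((ab_B ((RT_sm (fun i => (b2 i).1) ((half_pos h0).trans_le d2) i).sub
      (RT_sm (fun i => (bV i).1) ((half_pos h0).trans_le dV) i)) k).mono zero_le_one le_rfl
        ((mul_le_mul_of_nonneg_right C4 E0).trans hE)).congr ?_
    filter_upwards [(Tw_open R w).mem_nhds hz] with y hy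
    rw [fix y hy]
    exact sub_sub _ _ _
  refine ⟨fun i β h1 h2 z hz hr => ?_, (sin_w hw ((div_le_iff₀ hw).1 (C2.trans hl)) R).trans
    (measure_mono fun x hx => ⟨hx.1, fun y hy => ?_⟩)⟩
  · have hz' : z ∈ Tw R w := by
      unfold P354I.r2 at hr
      refine ⟨hz, max_lt ?_ ?_⟩ <;>
        exact abs_lt_of_sq_lt_sq (by nlinarith [sq_nonneg z.2.1, sq_nonneg z.2.2]) (by norm_num)
    refine B_ab (((((key z hz' i).1.mono zero_le_one (by norm_num) le_rfl).add
      (key z hz' i).2).mono zero_le_one le_rfl (le_of_eq (by ring))).congr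
        (Eventually.of_forall fun y => ?_)) β h1 h2
    simp
  · have hy' : ‖y‖ ≤ 10 / 7 := by
      refine norm_prod_le_iff.2 ⟨?_, ?_⟩ <;>
        exact abs_le_of_sq_le_sq (by nlinarith [sq_nonneg y.1, sq_nonneg y.2]) (by norm_num)
    have k := (key (x, y) ⟨⟨by linarith [hx.1.1], by linarith [hx.1.2]⟩, by linarith⟩ a1).2.zero
    have k2 : W (x, y) a1 = A * 8 * Real.sin (l * x) := by
      rw [hW, αa, o1 _ (abs_le.2 ⟨by linarith [hx.1.1], by linarith [hx.1.2]⟩),
        o2 _ (by simpa using hy')]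
      ring
    have k3 : 2 * A ≤ |W (x, y) a1| := by
      rw [k2, abs_mul, abs_of_pos (by positivity : 0 < A * 8)]
      nlinarith [hx.2]
    have k4 := abs_sub_abs_le_abs_sub (W (x, y) a1) (RT (top U' T) (x, y) a1 - top U T (x, y) a1)
    rw [abs_sub_comm (W _ _)] at k4
    linarith

end Vale.Agent.P354YX
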