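import Vale.Agent.P354YX.Fb0

/-!
The proof of FB, a real inequality.
-/

noncomputable section

namespace Vale.Agent.P354YX

open Vale.Agent.P354XY (Fa FB)

namespace Hy

variable {η P th lam φ A B ξ F b la mu ga al E : ℝ} (h : Hy η P th lam φ A B ξ F b la mu ga al)
  (hE : E = P * (b * B + (F - b) * A + la - mu) + (2 - th) * al)
include h hE

/-- The lower bound of D. -/
lemma low {u ι s w W k m pL pN : ℝ} (u0 : 0 < u) (u1 : u ≤ 2 * P) (ι0 : 0 ≤ ι) (ι1 : ι ≤ η)
    (s0 : 0 ≤ s) (s1 : s ≤ w) (s2 : s * lam ≤ η * u) (f1 : P * φ ≤ w) (f2 : u * φ = s)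
    (W0 : 0 ≤ W) (W1 : W ≤ 2 * η) (W2 : W * u ≤ 2 * η * (th * u) + w) (k0 : 0 < k)
    (k1 : k ≤ 1 / 4) (k2 : η ≤ k / 1000) (m1 : -2 ≤ m)
    (hm : m = -(F * A ^ 2) - 2 * B * al + 2 * A * mu + ga)
    (hL : u * ξ ^ 2 - ((ι + lam) * u * ξ ^ 2 + (lam * u + W * u + s) * |A| ^ 2 +
      s * u * (|A| * |B|) + lam * u * (|B| * ξ) + (W + s + lam) * u * (|A| * ξ)) ≤ pL)
    (hN : -(φ * |A| ^ 2 + (s + ι * u) * (|A| * |B|) + ι * u ^ 2 * |B| ^ 2 + s * (|A| * ξ) +
      ι * u * (|B| * ξ) + s * ξ ^ 2) ≤ pN) :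
    k / 4 * (u * (th * |A| ^ 2 + P * |B| ^ 2 + ξ ^ 2)) - 1 - 192 * (w * (|A| * E)) ≤
      P * pN + (2 - th - P) * pL + P * u * B * (b * B + (F - b) * A + la - mu) -
        k * th * u * B * al := by
  have P0 := h.P0.le
  have P2 := h.P2
  have η0 := h.η0.le
  have η1 := h.η1
  have ξ0 := h.ξ0
  have t0 : 0 ≤ th := by linarith [h.P1]
  have w0 : 0 ≤ w := s0.trans s1
  have u2 : u ≤ 1 := by linarith
  have Q0 : 1 / 2 ≤ 2 - th - P := by linarith [h.t1]
  have Q1 : 2 - th - P ≤ 2 := by linarith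
  have x0 := abs_nonneg A
  have y0 := abs_nonneg B
  have xs := h.xi_sq
  have hZ := mul_le_mul_of_nonneg_left (mul_le_mul_of_nonneg_left (add_le_add (add_le_add
    (h.x4 hE) (h.y9 hE)) (h.xi3 hE)) x0) w0
  have T3 : (1 - η) * |B| ^ 2 - (3 * η + φ) * (|A| * |B|) - 3 * η * (|B| * ξ) ≤
      B * (b * B + (F - b) * A + la - mu) := by
    have q1 := mul_le_mul_of_nonneg_right (abs_le.1 h.hb).1 (sq_nonneg B)
    have q2 := (abs_le.1 (abs_mul_le h.Fb (abs_mul A B).le)).1
    have q3 := (abs_le.1 (abs_mul_le h.lm (le_refl |B|))).1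
    rw [sq_abs]
    linarith
  have T4 : -2 + (1 - 4 * η - φ) * |A| ^ 2 - (1 + 4 * η) * ξ ^ 2 ≤ -2 * B * al := by
    have q1 := mul_le_mul_of_nonneg_right (abs_le.1 h.hF).1 (sq_nonneg A)
    have q2 := (abs_le.1 h.Amu).2
    have q3 := (abs_le.1 h.hg).2
    rw [sq_abs] at q2 ⊢
    linarith
  have t1 := h.t1
  have l0 := h.l0
  have l1 := h.l1
  have l2 := h.l2
  have P1 := h.P1
  generalize |A| = x at *
  generalize |B| = y at *
  have xx := sq_nonneg x
  have yy := sq_nonneg y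
  have zz := sq_nonneg ξ
  have xy := mul_nonneg x0 y0
  have xz := mul_nonneg x0 ξ0
  have yz := mul_nonneg y0 ξ0
  have eu := mul_nonneg η0 u0.le
  have eP := mul_nonneg eu P0
  have G1 : 0 ≤ η * u * th * x ^ 2 := by positivity
  have G2 : 0 ≤ η * u * P * y ^ 2 := by positivity
  have G3 : 0 ≤ η * u * ξ ^ 2 := by positivity
  have Z1 : 0 ≤ w * x ^ 2 := by positivity
  have Z2 : 0 ≤ w * P * (x * y) := by positivity
  have Z3 : 0 ≤ w * P * (x * ξ) := by positivity
  have a1 := am eP x y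
  have a2 := am eP y ξ
  have a3 := am eP x ξ
  have a4 := mul_le_mul_of_nonneg_right (mul_le_mul_of_nonneg_left P1 eu) xx
  have a5 := mul_le_mul_of_nonneg_right (mul_le_mul_of_nonneg_left P2 eu) zz
  have lu := mul_le_mul_of_nonneg_right l1 u0.le
  have su := mul_le_mul s1 u1 u0.le w0
  have eL : (ι + lam) * u * ξ ^ 2 + (lam * u + W * u + s) * x ^ 2 + s * u * (x * y) +
      lam * u * (y * ξ) + (W + s + lam) * u * (x * ξ) ≤ 5 * (η * u * (th * x ^ 2 + P * y ^ 2 +
        ξ ^ 2)) + 3 * (w * (x * (x + P * y + P * ξ))) := by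
    have b1 := mul_le_mul_of_nonneg_right (mul_le_mul_of_nonneg_right (add_le_add ι1 l2) u0.le) zz
    have b2 := mul_le_mul_of_nonneg_right (add_le_add (add_le_add lu W2) s1) xx
    have b3 := mul_le_mul_of_nonneg_right su xy
    have b4 := mul_le_mul_of_nonneg_right lu yz
    have b5 := am (mul_nonneg W0 u0.le) x ξ
    have b6 := mul_le_mul_of_nonneg_right W2 xx
    have b7 := mul_le_mul_of_nonneg_right (mul_le_mul_of_nonneg_right W1 u0.le) zz
    have b8 := mul_le_mul_of_nonneg_right su xz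
    have b9 := mul_le_mul_of_nonneg_right lu xz
    linarith only [b1, b2, b3, b4, b5, b6, b7, b8, b9, a2, a3, a4, a5, G1, G2, G3, Z1, Z2, Z3]
  have e0 : 0 ≤ (ι + lam) * u * ξ ^ 2 + (lam * u + W * u + s) * x ^ 2 + s * u * (x * y) +
      lam * u * (y * ξ) + (W + s + lam) * u * (x * ξ) := by positivity
  have sP := mul_le_mul_of_nonneg_right s1 P0
  have iP := mul_le_mul_of_nonneg_right (mul_le_mul_of_nonneg_right ι1 u0.le) P0
  have eN : P * (φ * x ^ 2 + (s + ι * u) * (x * y) + ι * u ^ 2 * y ^ 2 + s * (x * ξ) +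
      ι * u * (y * ξ) + s * ξ ^ 2) ≤ 5 * (η * u * (th * x ^ 2 + P * y ^ 2 +
        ξ ^ 2)) + 4 * (w * (x * (x + P * y + P * ξ))) := by
    have b1 := mul_le_mul_of_nonneg_right f1 xx
    have b2 := mul_le_mul_of_nonneg_right (add_le_add sP iP) xy
    have b3 := mul_le_mul_of_nonneg_right (mul_le_mul iP u2 u0.le eP) yy
    have b4 := mul_le_mul_of_nonneg_right sP xz
    have b5 := mul_le_mul_of_nonneg_right iP yz
    have b6 := mul_le_mul_of_nonneg_left xs s0
    have b7 := mul_le_mul_of_nonneg_right s1 xx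
    have b8 := mul_le_mul_of_nonneg_right sP xy
    have b9 := mul_le_mul_of_nonneg_right (mul_le_mul_of_nonneg_right s2 P0) yz
    linarith only [b1, b2, b3, b4, b5, b6, b7, b8, b9, a1, a2, a4, a5, G1, G2, G3, Z1, Z2, Z3]
  have c1 := mul_le_mul_of_nonneg_left hN P0
  have c2 := mul_le_mul_of_nonneg_left hL (le_trans (by norm_num) Q0)
  have c3 := mul_le_mul_of_nonneg_right Q1 e0
  have uz : 0 ≤ u * ξ ^ 2 := by positivity
  have c4 := mul_le_mul_of_nonneg_right Q0 uz
  have c5 := mul_le_mul_of_nonneg_left T3 (mul_nonneg P0 u0.le)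
  have c6 : P * u * φ * (x * y) ≤ w * P * (x * y) :=
    mul_le_mul_of_nonneg_right (by rw [mul_assoc, f2, mul_comm]; exact sP) xy
  have kt : k * th ≤ 1 / 4 := (mul_le_of_le_one_right k0.le t1).trans k1
  have ku : 0 ≤ k * th * u := by positivity
  have c7 := mul_le_mul_of_nonneg_left T4 ku
  have c8 : k * th * u ≤ 1 := mul_le_one₀ (kt.trans (by norm_num)) u0.le u2
  have c9 : k * th * (u * φ) * x ^ 2 ≤ w * x ^ 2 :=
    mul_le_mul_of_nonneg_right (f2 ▸ (mul_le_of_le_one_left s0 (kt.trans (by norm_num))).trans s1) xx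
  have d1 := mul_le_mul_of_nonneg_right k1 G1
  have d2 := mul_le_mul_of_nonneg_right kt uz
  have d3 := mul_le_mul_of_nonneg_right kt G3
  have d4 := mul_le_mul_of_nonneg_right k1 uz
  have uy : 0 ≤ u * P * y ^ 2 := by positivity
  have ux : 0 ≤ u * th * x ^ 2 := by positivity
  have d5 := mul_le_mul_of_nonneg_right k1 uy
  have d6 := mul_le_mul_of_nonneg_right k2 (add_nonneg (add_nonneg ux uy) uz)
  have d7 := mul_nonneg k0.le (add_nonneg (add_nonneg ux uy) uz)
  linarith only [eL, eN, c1, c2, c3, c4, c5, c6, c7, c8, c9, d1, d2, d3, d4, d5, d6, d7, hZ, a1, a2,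
    a4, a5, G1, G2, G3, Z1, Z2, Z3, uz, uy, ux]

end Hy

/-- **FB.** -/
theorem fb : FB := by
  refine ⟨250, by norm_num, fun C hC k k0 k1 => ⟨k / (1000 * C), by positivity, ?_⟩⟩
  intro R ε r S Wt c th A B ξ F b la mu ga pL pN m P al eN E D R0 hR ε0 hε hr t0 t1 S0 Sc c1
    W0 W1 W2 ξ0 H hm m1 m0 hP hal a0 heN hE hD
  obtain ⟨η, hη⟩ : ∃ η, η = k / (1000 * C) := ⟨_, rfl⟩
  rw [← hη] at hR hε ⊢
  have ηC : η * C = k / 1000 := by rw [hη]; field_simp
  have η0 : 0 < η := by rw [hη]; positivity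
  have η2 : η ≤ k / 1000 := (le_mul_of_one_le_right η0.le hC).trans ηC.le
  have R1 : 1 ≤ R := (hC.trans hR).trans (mul_le_of_le_one_left R0.le (by linarith))
  have r0 : 0 < r := by linarith
  obtain ⟨u, hu⟩ : ∃ u, u = r⁻¹ := ⟨_, rfl⟩
  have u0 : 0 < u := by rw [hu]; positivity
  have ur : u * r = 1 := by rw [hu]; field_simp
  have uR : u * R = 2 * P := by rw [hu, hP]; field_simp
  obtain ⟨ι, hι⟩ : ∃ ι, ι = C * ε := ⟨_, rfl⟩
  have ι0 : 0 ≤ ι := by rw [hι]; positivity
  obtain ⟨hF, hb, hl, hmu, hg, hL, hN⟩ := H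
  simp only [div_eq_mul_inv, ← inv_pow, ← hu] at hF hl hmu hg hL hN t0 W2 hD
  rw [← hι] at hε hb ⊢
  have ιR : ι ≤ ι * R := le_mul_of_one_le_right ι0 R1
  have ι1 : ι ≤ η := ιR.trans hε
  have P0 : 0 < P := by rw [hP]; positivity
  have u1 : u ≤ 2 * P := (le_mul_of_one_le_right u0.le R1).trans uR.le
  have l1 : C * u ≤ 2 * η * P :=
    (mul_le_mul_of_nonneg_right hR u0.le).trans_eq (by linear_combination η * uR)
  have P2 : 2 * P ≤ 1 := by linarith
  have l2 : C * u ≤ η := by linarith only [l1, mul_le_mul_of_nonneg_left P2 η0.le]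
  have c0 : 0 ≤ c := S0.trans Sc
  have f0 : P * (ι * r * S) = ι * R * S / 2 := by rw [hP]; field_simp
  have f3 : ι * R * S ≤ ι * R * c := mul_le_mul_of_nonneg_left Sc (by positivity)
  have f4 : ι * R * c ≤ η := (mul_le_of_le_one_right (by positivity) c1).trans hε
  have f5 : 0 ≤ ι * R * S := by positivity
  have zz := sq_nonneg ξ
  have h : Hy η P th (C * u) (ι * r * S) A B ξ F b la mu ga al :=
    ⟨η0, by linarith, P0, by linarith, t1, by positivity, l1, by positivity, by linarith, ξ0,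
      hF.trans (by rw [hι] at ι1 ⊢; linarith), hb.trans ι1, hl.trans (by linarith),
      hmu.trans (by have := mul_le_mul_of_nonneg_right (add_le_add ι1 l2) ξ0; rw [hι] at this
                    linarith),
      hg.trans (by have := mul_le_mul_of_nonneg_right (add_le_add ι1 l2) zz; rw [hι] at this
                   linarith), hal, a0, by rw [hal]; linarith⟩
  have hE' : E = P * (b * B + (F - b) * A + la - mu) + (2 - th) * al := by
    rw [hE, heN, hal]
    ring
  have E0 := h.E0 hE'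
  refine ⟨by linarith [h.al3 hE', h.x4 hE', h.y9 hE', h.xi3 hE'], ?_, fun γ g1 g2 => ?_,
    fun e f r2 f0 f1 he => ?_⟩
  · have q1 : |F| ≤ 1 + (2 * η + ι * r * S) := by
      have := abs_le.1 h.hF
      exact abs_le.2 ⟨by linarith only [this.1], by linarith only [this.2]⟩
    have q2 := mul_le_mul_of_nonneg_left q1 P0.le
    have q3 : P * |F| ≤ 2 := by
      linarith only [q2, P2, h.p1, h.η1, mul_le_mul_of_nonneg_left P2 η0.le]
    linarith only [mul_le_mul_of_nonneg_left q3 P0.le, P2]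
  · have q := h.low hE' (u := u) (ι := ι) (s := ι * S) (w := ι * R * c) (W := ι * Wt) (k := k)
      (m := m) (pL := pL) (pN := pN) u0 u1 ι0 ι1 (by positivity)
      (mul_le_mul ιR Sc S0 (by positivity)) ?_ (by linarith) (by linear_combination ι * S * ur)
      (by positivity) (by linarith only [mul_le_mul ι1 W1 W0 η0.le]) ?_ k0 k1 η2 m1 (by rw [hm, hal]; ring)
      (by rw [sq_abs, hι]; linarith) (by rw [sq_abs, sq_abs, hι]; linarith)
    · have e1 : k * (th * A ^ 2 + P * B ^ 2 + ξ ^ 2) / (250 * r) =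
          k / 250 * (u * (th * |A| ^ 2 + P * |B| ^ 2 + ξ ^ 2)) := by
        rw [sq_abs, sq_abs, hu]
        field_simp
      have e2 : eN - al = b * B + (F - b) * A + la - mu := by rw [heN, hal]; ring
      have t2 : 0 ≤ th := by linarith [h.P1]
      have G0 : 0 ≤ k * (u * (th * |A| ^ 2 + P * |B| ^ 2 + ξ ^ 2)) := by positivity
      have xE := mul_nonneg (abs_nonneg A) E0
      have q1 := mul_le_mul_of_nonneg_right g1 xE
      have q2 : 0 ≤ ι * R * c * (|A| * E) := by positivity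
      rw [e1, hD, e2]
      rcases le_or_gt 0 A with hA | hA
      · rw [show γ * A * E = γ * (|A| * E) by rw [abs_of_nonneg hA]; ring]
        linarith
      · rw [show γ * A * E = -(γ * (|A| * E)) by rw [abs_of_neg hA]; ring]
        have q3 := mul_le_mul g2 (h.neg hE' hA) xE η0.le
        have q4 : η * (3 * (C * u * (P * |B| ^ 2 + ξ ^ 2))) =
            3 / 1000 * (k * (u * (P * |B| ^ 2 + ξ ^ 2))) := by
          linear_combination 3 * u * (P * |B| ^ 2 + ξ ^ 2) * ηC
        have q5 : 0 ≤ k * (u * (th * |A| ^ 2)) := by positivity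
        linarith
    · have q1 : ι * C ≤ η := by
        linarith only [mul_le_mul_of_nonneg_left hR ι0, mul_le_mul_of_nonneg_left hε η0.le,
          mul_le_of_le_one_right η0.le (h.η1.trans (by norm_num))]
      have q2 : ι * C * S ≤ η := (mul_le_of_le_one_right (by positivity) (Sc.trans c1)).trans q1
      linarith [mul_le_mul_of_nonneg_right q2 u0.le]
    · have q1 := mul_le_mul_of_nonneg_left W2 ι0
      have q2 := mul_le_mul_of_nonneg_right ι1 (mul_nonneg (by linarith [h.P1] : 0 ≤ th) u0.le)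
      linarith [mul_le_mul_of_nonneg_right ιR c0]
  · obtain ⟨δ, hδ⟩ : ∃ δ, δ = C / R + ι * R := ⟨_, rfl⟩
    rw [← hδ]
    have v1 : C * u ≤ C / R := by
      rw [hu, ← div_eq_mul_inv]
      exact div_le_div_of_nonneg_left (by linarith) R0 hr
    have v0 : 0 ≤ C * u := by positivity
    have v2 : ι * r ≤ 3 * δ := by
      linarith only [mul_le_mul_of_nonneg_left r2 ι0, ιR, hδ, v0, v1, ι0]
    have v3 : ι * r * S ≤ ι * r := mul_le_of_le_one_right (by positivity) (Sc.trans c1)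
    have v4 : 1 - th ≤ 2 * δ := by
      have q1 := mul_le_mul_of_nonneg_left r2 u0.le
      have q2 := le_mul_of_one_le_left u0.le hC
      linarith
    have x0 := abs_nonneg A
    have y0 := abs_nonneg B
    have δ0 : 0 ≤ δ := by linarith
    have p1 : |P - 1| ≤ 1 := abs_le.2 ⟨by linarith, by linarith [h.P2]⟩
    have p2 : |2 - th - P| ≤ 2 := abs_le.2 ⟨by linarith [h.P2], by linarith [h.P1]⟩
    have z1 := abs_le.1 (abs_mul_le p1 (hF.trans (by rw [hι] at *; linarith : _ ≤ 4 * δ)))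
    have z2 := abs_le.1 (abs_mul_le p2 (hb.trans (by linarith : _ ≤ δ)))
    have z3 := abs_le.1 (abs_mul_le (abs_le.2 ⟨by linarith, by linarith⟩ :
      |(P - 1) * (F - 1) + (2 - th - P) * (b - 1) + (1 - th)| ≤ 8 * δ) (le_refl |A|))
    have z4 := abs_le.1 (abs_mul_le p1 (hmu.trans (by
      have := mul_le_mul_of_nonneg_right (by linarith : ι + C * u ≤ δ) ξ0
      rw [hι] at this; linarith : _ ≤ δ * ξ)))
    have z5 := abs_le.1 (abs_mul_le p2 (hl.trans (by
      linarith [mul_le_mul_of_nonneg_right (by linarith : C * u ≤ δ) ξ0] : _ ≤ δ * ξ)))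
    have z6 := abs_le.1 (he.trans (mul_le_mul_of_nonneg_right v2 (by positivity)))
    have z7 : (P - 1) * b + f ≤ -(1 / 8) := by
      linarith only [mul_le_mul_of_nonneg_left (abs_le.1 (h.hb.trans h.η1)).1
        (by linarith : 0 ≤ 1 - P), P2, f1, P0]
    obtain ⟨z, hz⟩ : ∃ z, z = E - (e - f * B) - ((P - 1) * b + f) * B := ⟨_, rfl⟩
    have z8 : |z| ≤ 11 * (δ * (|A| + |B| + ξ)) := by
      have q1 := mul_nonneg δ0 x0
      have q2 := mul_nonneg δ0 y0
      have q3 := mul_nonneg δ0 ξ0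
      rw [hz, hE, hal]
      rw [heN] at z6 ⊢
      exact abs_le.2 ⟨by linarith [z3.1, z4.2, z5.2, z6.2], by linarith [z3.2, z4.1, z5.1, z6.1]⟩
    have z9 := pow_le_pow_left₀ (abs_nonneg z) z8 2
    rw [sq_abs] at z9
    have z10 := mul_le_mul_of_nonneg_right z7 (sq_nonneg B)
    rw [show E - (e - f * B) = z + ((P - 1) * b + f) * B by rw [hz]; ring]
    linarith only [z9, z10, sq_nonneg (B - 4 * z), sq_nonneg (δ * (|A| + |B| + ξ))]

end Vale.Agent.P354YX
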