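import Vale.Agent.P354XY.Defs2

/-!
FB, first part: the energy controls the vector.
-/

noncomputable section

namespace Vale.Agent.P354YX

open Vale.Agent.P354XY (Fa FB)

/-- The hypotheses in normal form. -/
structure Hy (η P th lam φ A B ξ F b la mu ga al : ℝ) : Prop where
  η0 : 0 < η
  η1 : η ≤ 1 / 4000
  P0 : 0 < P
  P1 : 2 * P ≤ th
  t1 : th ≤ 1
  l0 : 0 ≤ lam
  l1 : lam ≤ 2 * η * P
  p0 : 0 ≤ φ
  p1 : P * φ ≤ η
  ξ0 : 0 ≤ ξ
  hF : |F - 1| ≤ 2 * η + φ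
  hb : |b - 1| ≤ η
  hl : |la| ≤ lam * ξ
  hm : |mu| ≤ 2 * η * ξ
  hg : |ga - ξ ^ 2| ≤ 2 * η * ξ ^ 2
  ea : al = b * A - la
  a0 : 0 ≤ al
  m0 : -(F * A ^ 2) - 2 * B * al + 2 * A * mu + ga < 0

lemma abs_mul_le {x y a d : ℝ} (h1 : |x| ≤ a) (h2 : |y| ≤ d) : |x * y| ≤ a * d := by
  rw [abs_mul]
  exact mul_le_mul h1 h2 (abs_nonneg _) ((abs_nonneg _).trans h1)

lemma am {c : ℝ} (hc : 0 ≤ c) (a b : ℝ) : c * (a * b) ≤ c * (a ^ 2 + b ^ 2) / 2 := by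
  nlinarith [mul_nonneg hc (sq_nonneg (a - b))]

namespace Hy

variable {η P th lam φ A B ξ F b la mu ga al E : ℝ} (h : Hy η P th lam φ A B ξ F b la mu ga al)
include h

lemma P2 : P ≤ 1 / 2 := by linarith [h.P1, h.t1]

lemma l2 : lam ≤ η := by nlinarith [h.l1, h.P2, h.η0]

lemma ba : |(b - 1) * A| ≤ 1 / 4000 * |A| := abs_mul_le (h.hb.trans h.η1) le_rfl

lemma x_le : |A| ≤ 101 / 100 * (al + lam * ξ) := by
  have k1 := abs_le.1 h.ba
  have k2 := abs_le.1 h.hl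
  have k3 := h.ea
  have k4 := h.a0
  rcases abs_cases A with k | k <;> nlinarith [k.1, k.2]

lemma al_le : al ≤ 101 / 100 * |A| + lam * ξ := by
  have k1 := abs_le.1 h.ba
  have k2 := abs_le.1 h.hl
  have k3 := h.ea
  nlinarith [le_abs_self A, abs_nonneg A]

lemma Fb : |F - b| ≤ 3 * η + φ := by
  have k1 := abs_le.1 h.hF
  have k2 := abs_le.1 h.hb
  exact abs_le.2 ⟨by linarith, by linarith⟩

lemma PFb : |P * (F - b)| ≤ 3 * η := by
  refine (abs_mul_le (abs_of_pos h.P0).le h.Fb).trans ?_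
  nlinarith [h.P2, h.p1, h.η0]

lemma lm : |la - mu| ≤ 3 * η * ξ := by
  have k1 := abs_le.1 h.hl
  have k2 := abs_le.1 h.hm
  have k3 := mul_le_mul_of_nonneg_right h.l2 h.ξ0
  exact abs_le.2 ⟨by linarith, by linarith⟩

lemma Amu : |A * mu| ≤ η * (|A| ^ 2 + ξ ^ 2) := by
  refine (abs_mul_le le_rfl h.hm).trans ?_
  linarith [am h.η0.le |A| ξ]

lemma star : 999 / 1000 * (P * ξ ^ 2) - 501 / 1000 * |A| ^ 2 ≤ 2 * (P * B * al) := by
  have k1 := (abs_le.1 h.Amu).1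
  have k2 := (abs_le.1 h.hg).1
  have k3 := mul_le_mul_of_nonneg_right (abs_le.1 h.hF).2 (sq_nonneg A)
  have k4 : (1 - 4 * η) * ξ ^ 2 - (1 + 4 * η + φ) * A ^ 2 ≤ 2 * B * al := by
    rw [sq_abs] at k1
    linarith [h.m0]
  have k5 := mul_le_mul_of_nonneg_left k4 h.P0.le
  have k6 : P * (1 + 4 * η + φ) ≤ 501 / 1000 := by nlinarith [h.P2, h.p1, h.η0, h.η1]
  have k7 := mul_le_mul_of_nonneg_right k6 (sq_nonneg A)
  have k8 := mul_le_mul_of_nonneg_right h.η1 (mul_nonneg h.P0.le (sq_nonneg ξ))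
  rw [sq_abs]
  linarith

lemma x_sq : |A| ^ 2 ≤ 113 / 100 * al ^ 2 + 1 / 1000 * (P * ξ ^ 2) := by
  have k1 := pow_le_pow_left₀ (abs_nonneg A) h.x_le 2
  have k2 : lam ≤ 1 / 2000 * P := by nlinarith [h.l1, h.η1, h.P0]
  have k3 : lam ^ 2 ≤ 1 / 1000000 * P := by nlinarith [h.l0, h.P0, h.P2]
  have k4 := mul_le_mul_of_nonneg_right k3 (sq_nonneg ξ)
  have k5 := mul_nonneg h.P0.le (sq_nonneg ξ)
  nlinarith [sq_nonneg (al - 10 * (lam * ξ)), sq_nonneg al]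

lemma xi_sq : P * ξ ^ 2 ≤ |A| ^ 2 + 3 * (P * |B| * |A|) + 3 * (lam * (P * |B| * ξ)) := by
  have k1 := h.star
  have k0 := mul_nonneg h.P0.le (abs_nonneg B)
  have k2 : P * B * al ≤ P * |B| * al :=
    mul_le_mul_of_nonneg_right (mul_le_mul_of_nonneg_left (le_abs_self B) h.P0.le) h.a0
  have k3 := mul_le_mul_of_nonneg_left h.al_le k0
  have k4 := mul_nonneg k0 (abs_nonneg A)
  have k5 := mul_nonneg h.l0 (mul_nonneg k0 h.ξ0)
  nlinarith [sq_nonneg |A|]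

lemma rest : |P * ((F - b) * A + la - mu)| ≤ 3 * η * |A| + 3 * η * (P * ξ) := by
  have k1 := abs_le.1 (abs_mul_le h.PFb (le_refl |A|))
  have k2 := abs_le.1 (abs_mul_le (abs_of_pos h.P0).le h.lm)
  exact abs_le.2 ⟨by linarith [k1.1, k2.1], by linarith [k1.2, k2.2]⟩

lemma rest2 : |P * ((F - b) * A + la - mu)| ≤ 1 / 1000 * (|A| + P * ξ) := by
  have k5 := mul_le_mul_of_nonneg_right h.η1 (abs_nonneg A)
  have k6 := mul_le_mul_of_nonneg_right h.η1 (mul_nonneg h.P0.le h.ξ0)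
  linarith [h.rest, abs_nonneg A, mul_nonneg h.P0.le h.ξ0]

lemma bB : |(b - 1) * (P * B)| ≤ 1 / 4000 * (P * |B|) :=
  abs_mul_le (h.hb.trans h.η1) (by rw [abs_mul, abs_of_pos h.P0])

variable (hE : E = P * (b * B + (F - b) * A + la - mu) + (2 - th) * al)
include hE

lemma alE : al ^ 2 + P * ξ ^ 2 ≤ 3 * (al * E) := by
  have q0 := mul_nonneg h.P0.le (sq_nonneg ξ)
  have q1 := mul_nonneg h.P0.le h.ξ0
  have k1 : 9 / 20 * (P * ξ ^ 2) - 3 / 10 * al ^ 2 ≤ P * B * al := by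
    linarith [h.star, h.x_sq, sq_nonneg al]
  have b1 := abs_le.1 (h.hb.trans h.η1)
  have k2 := mul_le_mul_of_nonneg_left k1 (by linarith : 0 ≤ b)
  have k3 := mul_le_mul_of_nonneg_right b1.1 q0
  have k4 := mul_le_mul_of_nonneg_right b1.2 (sq_nonneg al)
  have l1 : lam * ξ ≤ P * ξ := mul_le_mul_of_nonneg_right (by nlinarith [h.l1, h.η1, h.P0]) h.ξ0
  have r1 : -(1 / 100 * (al + P * ξ)) ≤ P * ((F - b) * A + la - mu) := by
    have k5 := mul_le_mul_of_nonneg_right h.η1 (abs_nonneg A)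
    have k6 := mul_le_mul_of_nonneg_right h.η1 q1
    linarith [(abs_le.1 h.rest).1, h.x_le, h.a0]
  have k7 := mul_le_mul_of_nonneg_left r1 h.a0
  have k8 := mul_le_mul_of_nonneg_right h.t1 (sq_nonneg al)
  have k9 := mul_le_mul_of_nonneg_right h.P2 q0
  rw [hE]
  nlinarith [sq_nonneg (al - P * ξ), sq_nonneg al]

lemma al_pos : 0 < al := by
  refine h.a0.lt_of_ne fun k => ?_
  have k1 := h.alE hE
  rw [← k] at k1
  have k2 : ξ = 0 := pow_eq_zero_iff (two_ne_zero) |>.1 (le_antisymm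
    (le_of_mul_le_mul_left (by linarith) h.P0) (sq_nonneg ξ))
  have k3 := h.x_le
  have k4 := h.hg
  have k5 := h.m0
  rw [← k, k2] at k3
  rw [k2] at k4
  have k6 : A = 0 := abs_nonpos_iff.1 (by linarith)
  have k7 : ga = 0 := by simpa using k4
  rw [← k, k6, k7] at k5
  linarith

lemma al3 : al ≤ 3 * E := by
  have k1 := h.alE hE
  have q0 := mul_nonneg h.P0.le (sq_nonneg ξ)
  exact le_of_mul_le_mul_left (by nlinarith) (h.al_pos hE)

lemma E0 : 0 ≤ E := by linarith [h.al3 hE, h.a0]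

lemma xi3 : P * ξ ≤ 3 * E := by
  have k1 := h.alE hE
  have k2 := mul_le_mul_of_nonneg_right (h.al3 hE) (h.E0 hE)
  have k3 := mul_le_mul_of_nonneg_right h.P2 (mul_nonneg h.P0.le (sq_nonneg ξ))
  have k4 := mul_nonneg h.P0.le (sq_nonneg ξ)
  exact (le_abs_self _).trans (abs_le_of_sq_le_sq (by nlinarith [sq_nonneg al])
    (by linarith [h.E0 hE]))

lemma x4 : |A| ≤ 4 * E := by
  have l1 : lam * ξ ≤ 1 / 10 * (P * ξ) := by
    have : lam ≤ 1 / 10 * P := by nlinarith [h.l1, h.η1, h.P0]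
    linarith [mul_le_mul_of_nonneg_right this h.ξ0]
  linarith [h.x_le, h.al3 hE, h.xi3 hE, h.E0 hE]

lemma y9 : P * |B| ≤ 9 * E := by
  have k1 := abs_le.1 (h.rest2)
  have k2 := abs_le.1 (h.bB)
  have k3 := mul_le_mul_of_nonneg_right h.t1 h.a0
  have k4 := mul_nonneg (by linarith [h.P0, h.P1] : 0 ≤ th) h.a0
  have k5 := h.al3 hE
  have k6 := h.xi3 hE
  have k7 := h.x4 hE
  have k8 := h.a0
  rcases abs_cases B with k | k <;> rw [k.1] at k2 ⊢ <;> nlinarith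

lemma neg (hA : A < 0) : |A| * E ≤ 3 * (lam * (P * |B| ^ 2 + ξ ^ 2)) := by
  have k1 := abs_le.1 h.ba
  have k2 := abs_le.1 h.hl
  have k3 := h.ea
  have k4 := h.a0
  have k5 := abs_of_neg hA
  have q := mul_nonneg h.l0 h.ξ0
  have x1 : |A| ≤ 101 / 100 * (lam * ξ) := by nlinarith
  have a1 : al ≤ lam * ξ := by nlinarith
  have l1 : lam * ξ ≤ 1 / 4000 * ξ := mul_le_mul_of_nonneg_right (h.l2.trans h.η1) h.ξ0
  have p1 : P * ξ ≤ 1 / 2 * ξ := mul_le_mul_of_nonneg_right h.P2 h.ξ0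
  have y0 := mul_nonneg h.P0.le (abs_nonneg B)
  have e1 : E ≤ 101 / 100 * (P * |B|) + ξ := by
    have k6 := (abs_le.1 (h.rest2)).2
    have k7 := (abs_le.1 (h.bB)).2
    have k8 := mul_nonneg (by linarith [h.P0, h.P1] : 0 ≤ th) h.a0
    have k9 := mul_le_mul_of_nonneg_left (le_abs_self B) h.P0.le
    nlinarith [h.ξ0]
  have k6 := mul_le_mul x1 e1 (h.E0 hE) (by linarith)
  have k7 := am (mul_nonneg h.l0 h.P0.le) |B| ξ
  have k8 := mul_le_mul_of_nonneg_left h.P2 (mul_nonneg h.l0 (sq_nonneg ξ))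
  have k9 := mul_nonneg h.l0 (sq_nonneg ξ)
  have k10 := mul_nonneg (mul_nonneg h.l0 h.P0.le) (sq_nonneg |B|)
  nlinarith

end Hy

end Vale.Agent.P354YX
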